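import Vale.Agent.P232.Rigid.Complete

namespace Vale.Agent.Results.P232.Minimizers

open Vale.Agent.P232 in
theorem result : (∀ V : ℝ, 0 ≤ V → V ≤ 1 → profile V = ENNReal.ofReal (J V)) ∧
    ∀ E : Set (ℝ × ℝ × ℝ), MeasurableSet E → PerSet E → 0 < vol E → vol E < 1 →
      perim E = profile (vol E) → Rigid.IsStandard E ∨ Rigid.IsStandard Eᶜ :=
  Rigid.complete

end Vale.Agent.Results.P232.Minimizers
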